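import Vale.Agent.P300.ASM.XF
import Vale.Agent.P300.H354.D3
import Vale.Agent.P300.H540.Base
import Vale.Agent.P300.H787.NInj
import Vale.Agent.P300.H959.Lab
import Vale.Agent.P300.H732.HolS
import Vale.Agent.P300.H707.SphInst

/-!
# P300, assembly: block D3 on the surfaces `XX hN n`
-/

open Set Topology Complex
open scoped Manifold ContDiff

namespace Vale.Agent.P300.ASM

/-- the level `n` in the form of helper354 -/
noncomputable def lvl (hN : Spec.NodeSpec rE) (n : ℕ) :
    Curve.Lvl H708.arrE (F n) (Subtype.val : TOR.Arr.UT → ℂ × ℂ) H242.io (rE.Tot (F n))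
      (XX hN n) where
  pr := rE.pr
  cov := rE.isCoveringMap_pr
  κ5 := Spec.kapU 5
  κ6 := Spec.kapU 6
  κX := Spec.kapU 15
  L5 := Spec.LL hN (F n) 5
  L6 := Spec.LL hN (F n) 6
  LX := Spec.LL hN (F n) 15
  n5 := Spec.node hN (F n) 5
  n6 := Spec.node hN (F n) 6
  nX := Spec.node hN (F n) 15
  v5 _ hw := Spec.kapU_coe 5 (Mod.Rp_subset_W hw)
  v6 _ hw := Spec.kapU_coe 6 (Mod.Rp_subset_W hw)
  vX _ hw := (Spec.kapU_coe 15 (Mod.Rp_subset_W hw)).trans (congrFun Spec.kapE_last _)
  base1 s := H540.base1 hN (F n) s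
  base2 s := H540.base2 hN (F n) s
  ι := Xincl hN n
  ι_cont := (XM hN n).continuous_incl
  t2 := inferInstance
  cpt := inferInstance
  π := Xpi hN n
  π_cont := continuous_Xpi hN n
  fin := finite_fibre_Xpi hN n
  π_ι := Xpi_incl hN n
  ninj s s' ha hb ha' hb' H H' hH hH' h1 h1' h := by
    have hfin : Finite (liftsU hN n).I := (liftsU hN n).finite_I
    refine H787.ninj (liftsU hN n) H242.yData (5 : Fin 15) (s := s) (s' := s') ?_ ?_ hH hH' h1 h1'
      H787.zero_mem_R h
    · intro k l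
      refine (Curve.perm_apply (H708.arrE.wa 5) (H708.arrE.wb 5) k l s).trans ?_
      rw [Curve.zpow_fix hb, Curve.zpow_fix ha]
    · intro k l
      refine (Curve.perm_apply (H708.arrE.wa 5) (H708.arrE.wb 5) k l s').trans ?_
      rw [Curve.zpow_fix hb', Curve.zpow_fix ha']

/-- the good labels in the form of helper354 -/
theorem goodS (n : ℕ) : Curve.Good H708.arrE (F n) m (fun s : Good n => (s : F n))
    (cp n false) (cp n true) where
  hm := m_pos
  inj := Subtype.coe_injective
  t'' s := t0''_smul s.2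
  t' s := by
    have h := t0'_smul s.2
    have e : H708.arrE.c2⁻¹ * H708.arrE.c1⁻¹ * H708.arrE.T0 = H708.arrE.t0' := by
      show H708.arrE.c2⁻¹ * H708.arrE.c1⁻¹ * H708.arrE.T0 =
        (H708.arrE.c1 * H708.arrE.c2)⁻¹ * H708.arrE.T0
      rw [mul_inv_rev]
    rw [e]
    exact h
  jc s := cp_false n s
  jc' s := cp_true n s
  ord s k := c2_zpow_smul s.2 k
  ord' s k := c3_zpow_smul s.2 k

/-- **Block D3**: the chains of rational curves in `XX hN 0`. -/
theorem chainsXX (hN : Spec.NodeSpec rE) : H232.Chains (Fin 2 → ℂ) (XX hN 0) := by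
  refine Curve.chains (A := H708.arrE) (val := (Subtype.val : TOR.Arr.UT → ℂ × ℂ))
    Subtype.val_injective (J := H242.io) (k5 := H242.kapY 5) (k6 := H242.kapY 6)
    (kX := H242.kapYX) (H707.isCh_kapY 5) (H707.isCh_kapY 6) H707.isCh_kapYX (Sp := H707.S)
    (fun w hw => H707.S_f1 hw) (fun w hw => H707.S_f0 hw) (fun w hw => H707.S_f1' hw)
    (fun w hw => H707.S_f0' hw) (F := F) (US := fun n => rE.Tot (F n)) (Z := fun n => XX hN n)
    (lvl hN) (fun n => pj (Nat.zero_le n)) (fun n x s => (pj (Nat.zero_le n)).map_smul x s)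
    (fun n => g (Nat.zero_le n)) (fun n => Xext hN (Nat.zero_le n))
    (fun n => isCoveringMap_Xext hN (Nat.zero_le n)) (fun n x => Xext_incl hN (Nat.zero_le n) x)
    ?_ ?_ ?_ (m := m) (S := fun n => Good n) (j := fun n s => (s : F n))
    (c := fun n => cp n false) (c' := fun n => cp n true) goodS
    (fun n => gpj (Nat.zero_le n)) (fun n s => rfl) gbase ?_ ?_
  · intro n z hz s
    exact (Spec.lifts hN 5).map (F n) (F 0) (pj (Nat.zero_le n))
      (fun g s => (pj (Nat.zero_le n)).map_smul g s) (z.1, z.2) hz s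
  · intro n z hz s
    exact (Spec.lifts hN 6).map (F n) (F 0) (pj (Nat.zero_le n))
      (fun g s => (pj (Nat.zero_le n)).map_smul g s) (z.1, z.2) hz s
  · intro n z hz s
    exact (Spec.lifts hN 15).map (F n) (F 0) (pj (Nat.zero_le n))
      (fun g s => (pj (Nat.zero_le n)).map_smul g s) (z.1, z.2) hz s
  · intro N
    obtain ⟨n, T, hT, h⟩ := exists_labels N
    refine ⟨n, T, hT, fun t ht => ?_⟩
    obtain ⟨g, hg, e⟩ := h t ht
    refine ⟨g, ?_, e⟩
    have h2 : Set.range (cp n) = {cp n false, cp n true} := by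
      ext x
      constructor
      · rintro ⟨b, rfl⟩
        cases b
        · exact Or.inl rfl
        · exact Or.inr rfl
      · rintro (rfl | rfl)
        · exact ⟨false, rfl⟩
        · exact ⟨true, rfl⟩
    rwa [h2] at hg
  · intro b e m hm h
    exact H732.hol_S (liftsU hN 0) b e m h

end Vale.Agent.P300.ASM
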