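import Vale.Agent.P300.ASM.Stmt426

/-!
# P300 : plug of the end of the proof into the fallback statement (helper426)
-/

set_option autoImplicit false

open scoped Manifold ContDiff

namespace Vale.Agent.P300.ASM

/-- The fallback statement from a surface `X` and the output of `H673.not_convex_entire_universal`
(or `H839.end_of_orbits`). -/
theorem fallback_of (X : Type) [TopologicalSpace X] [ChartedSpace (Fin 2 → ℂ) X]
    [IsManifold 𝓘(ℂ, Fin 2 → ℂ) ω X] [T2Space X] [CompactSpace X] [ConnectedSpace X]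
    (hf : HasFiniteMapToSpheres (Fin 2 → ℂ) X 5)
    (h : (∃ (V : Type) (_ : TopologicalSpace V) (_ : ChartedSpace (Fin 2 → ℂ) V) (p : V → X),
        T2Space V ∧ SimplyConnectedSpace V ∧ IsManifold 𝓘(ℂ, Fin 2 → ℂ) ω V ∧
        IsHolomorphicCovering (Fin 2 → ℂ) p ∧ ¬ HolomorphicallyConvex (Fin 2 → ℂ) V) ∧
      ∀ (V : Type) [TopologicalSpace V] [ChartedSpace (Fin 2 → ℂ) V] [SimplyConnectedSpace V]
        (p : V → X), IsHolomorphicCovering (Fin 2 → ℂ) p →
          ¬ HolomorphicallyConvex (Fin 2 → ℂ) V) : FallbackStatement := by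
  obtain ⟨⟨V, tV, cV, p, h1, h2, h3, h4, -⟩, h5⟩ := h
  refine ⟨X, inferInstance, inferInstance, inferInstance, inferInstance, inferInstance,
    inferInstance, hf, ⟨V, tV, cV, p, h3, h1, h2, h4⟩, ?_⟩
  intro W tW cW r hr
  have := hr.simplyConnected
  exact h5 W r hr.covering

end Vale.Agent.P300.ASM
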