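import Vale.Agent.P300.ASM.XP1
import Vale.Agent.P300.H232.End

/-!
# P300, assembly: the two final statements from the blocks NODE, D3 (and chapter E)
-/

open scoped Manifold ContDiff LinearAlgebra.Projectivization

namespace Vale.Agent.P300.ASM

/-- **The fallback theorem** from NODE and D3. -/
theorem surface_of (hN : Spec.NodeSpec rE) (hc : H232.Chains (Fin 2 → ℂ) (XX hN 0)) :
    H232.SurfaceStatement :=
  H232.surfaceStatement_of ⟨XX hN 0, inferInstance, inferInstance,
    ⟨inferInstance, inferInstance, inferInstance, inferInstance, exists_finite_map hN 0⟩, hc⟩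

/-- **The full theorem** from NODE, D3 and chapter E. -/
theorem disproof_of (hN : Spec.NodeSpec rE) (hc : H232.Chains (Fin 2 → ℂ) (XX hN 0))
    (hp : IsSmoothProjective (Fin 2 → ℂ) (XX hN 0)) :
    H232.DisproofStatement :=
  H232.disproofStatement_of ⟨XX hN 0, inferInstance, inferInstance,
    ⟨inferInstance, inferInstance, inferInstance, inferInstance, hp⟩, hc⟩

end Vale.Agent.P300.ASM
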