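import Vale.Agent.P300.H951.GT6
import Vale.Agent.P300.Spec.Geo

/-!
# P300, glue: the group side

One choice of the tower `K n ≤ E = Gam ⋊ V` of block GT; the finite transitive `E`-sets
`F n = E ⧸ K n`; their projections; the orders `p n ν s`, `q n ν s` of the two monodromies of the
chart `ν` at the point `s` (pulled back from `F 0`); generation of `E` by the five elements.
-/

namespace Vale.Agent.P300.ASM

open SemidirectProduct

/-- The group `π₁(M_{0,5})`. -/
abbrev E := H951.E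

/-- helper37's structure on `E`. -/
def rE : TOR.Arr E where
  c1 := inl H951.c1
  c2 := inl H951.c2
  c3 := inl H951.c3
  T0 := inr (FreeGroup.of 0)
  T1 := inr (FreeGroup.of 1)
  h01 := H708.arrE.r01
  h02 := H708.arrE.r02
  h03 := mul_inv_eq_iff_eq_mul.mp H708.arrE.r03
  h11 := mul_inv_eq_iff_eq_mul.mp H708.arrE.r11
  h12 := H708.arrE.r12
  h13 := H708.arrE.r13

theorem toA_rE : Spec.toA rE = H708.arrE := rfl

/-- The five elements generate `E`. -/
theorem closure_gens : Subgroup.closure rE.gens = ⊤ := by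
  rw [eq_top_iff]
  intro e _
  have hl : ∀ y : H951.Gam, (inl y : E) ∈ Subgroup.closure rE.gens := by
    intro y
    have h1 : (⊤ : Subgroup H951.Gam) ≤ (Subgroup.closure rE.gens).comap inl := by
      rw [← H951.closure_c, Subgroup.closure_le]
      rintro y (rfl | rfl | rfl)
      · exact Subgroup.subset_closure (Or.inl rfl)
      · exact Subgroup.subset_closure (Or.inr (Or.inl rfl))
      · exact Subgroup.subset_closure (Or.inr (Or.inr (Or.inl rfl)))
    exact h1 (Subgroup.mem_top y)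
  have hr : ∀ v : H951.V, (inr v : E) ∈ Subgroup.closure rE.gens := by
    intro v
    have h1 : (⊤ : Subgroup H951.V) ≤ (Subgroup.closure rE.gens).comap inr := by
      rw [← FreeGroup.closure_range_of, Subgroup.closure_le]
      rintro _ ⟨i, rfl⟩
      fin_cases i
      · exact Subgroup.subset_closure (Or.inr (Or.inr (Or.inr (Or.inl rfl))))
      · exact Subgroup.subset_closure (Or.inr (Or.inr (Or.inr (Or.inr rfl))))
    exact h1 (Subgroup.mem_top v)
  rw [← inl_left_mul_inr_right e]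
  exact mul_mem (hl _) (hr _)

/-! ### the tower -/

/-- the exponent `m` -/
noncomputable def m : ℕ := H951.gt_out.choose

/-- the tower of subgroups -/
noncomputable def K : ℕ → Subgroup E := H951.gt_out.choose_spec.choose

theorem gt_spec : 0 < m ∧ (∀ n, (K n).FiniteIndex) ∧ Antitone K ∧
    (∀ n, ∀ γ : H951.Gam, ∀ k ∈ K n, inl γ * k * (inl γ)⁻¹ ∈ K n) ∧
    (∀ n, H708.arrE.t0'' ∈ K n ∧ H708.arrE.t0' ∈ K n) ∧
    (∀ n, ∀ a : ℤ, (H708.arrE.c1 ^ a ∈ K n ↔ (m : ℤ) ∣ a) ∧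
      (H708.arrE.c2 ^ a ∈ K n ↔ (m : ℤ) ∣ a) ∧
      (H708.arrE.c3 ^ a ∈ K n ↔ (m : ℤ) ∣ a) ∧ (H708.arrE.c4 ^ a ∈ K n ↔ (m : ℤ) ∣ a)) ∧
    (∀ μ : Fin 15, H708.Lat (H708.arrE.std μ).1 (H708.arrE.std μ).2 K) ∧
    (∀ ν : Fin 16, H708.Lat (H708.arrE.wa ν) (H708.arrE.wb ν) K) ∧
    (∀ N, ∃ n, N ≤ ((K n).comap inl).index) := H951.gt_out.choose_spec.choose_spec

theorem m_pos : 0 < m := gt_spec.1
theorem K_fin (n : ℕ) : (K n).FiniteIndex := gt_spec.2.1 n
theorem K_anti : Antitone K := gt_spec.2.2.1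
theorem K_norm (n : ℕ) (γ : H951.Gam) {k : E} (hk : k ∈ K n) : inl γ * k * (inl γ)⁻¹ ∈ K n :=
  gt_spec.2.2.2.1 n γ k hk
theorem t0''_mem (n : ℕ) : H708.arrE.t0'' ∈ K n := (gt_spec.2.2.2.2.1 n).1
theorem t0'_mem (n : ℕ) : H708.arrE.t0' ∈ K n := (gt_spec.2.2.2.2.1 n).2
theorem c1_zpow_mem (n : ℕ) (a : ℤ) : H708.arrE.c1 ^ a ∈ K n ↔ (m : ℤ) ∣ a :=
  (gt_spec.2.2.2.2.2.1 n a).1
theorem c2_zpow_mem (n : ℕ) (a : ℤ) : H708.arrE.c2 ^ a ∈ K n ↔ (m : ℤ) ∣ a :=
  (gt_spec.2.2.2.2.2.1 n a).2.1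
theorem c3_zpow_mem (n : ℕ) (a : ℤ) : H708.arrE.c3 ^ a ∈ K n ↔ (m : ℤ) ∣ a :=
  (gt_spec.2.2.2.2.2.1 n a).2.2.1
theorem c4_zpow_mem (n : ℕ) (a : ℤ) : H708.arrE.c4 ^ a ∈ K n ↔ (m : ℤ) ∣ a :=
  (gt_spec.2.2.2.2.2.1 n a).2.2.2
theorem lat_std (μ : Fin 15) : H708.Lat (H708.arrE.std μ).1 (H708.arrE.std μ).2 K :=
  gt_spec.2.2.2.2.2.2.1 μ
theorem lat (ν : Fin 16) : H708.Lat (H708.arrE.wa ν) (H708.arrE.wb ν) K :=
  gt_spec.2.2.2.2.2.2.2.1 ν
theorem unbounded (N : ℕ) : ∃ n, N ≤ ((K n).comap inl).index := gt_spec.2.2.2.2.2.2.2.2 N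

/-! ### the sets `F n` -/

/-- The finite transitive `E`-set of the level `n`. -/
def F (n : ℕ) : Type := E ⧸ K n

noncomputable instance (n : ℕ) : MulAction E (F n) := inferInstanceAs (MulAction E (E ⧸ K n))

instance (n : ℕ) : TopologicalSpace (F n) := ⊥

instance (n : ℕ) : DiscreteTopology (F n) := ⟨rfl⟩

instance (n : ℕ) : Finite (F n) := by
  have := K_fin n
  exact inferInstanceAs (Finite (E ⧸ K n))

instance (n : ℕ) : Nonempty (F n) := inferInstanceAs (Nonempty (E ⧸ K n))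

instance (n : ℕ) : MulAction.IsPretransitive E (F n) :=
  inferInstanceAs (MulAction.IsPretransitive E (E ⧸ K n))

/-- the coset -/
noncomputable def mk (n : ℕ) (e : E) : F n := (QuotientGroup.mk e : E ⧸ K n)

theorem smul_mk (n : ℕ) (x e : E) : x • mk n e = mk n (x * e) := rfl

theorem mk_surjective (n : ℕ) : Function.Surjective (mk n) := QuotientGroup.mk_surjective

theorem mk_eq_iff {n : ℕ} {e e' : E} : mk n e = mk n e' ↔ e⁻¹ * e' ∈ K n := QuotientGroup.eq

/-- input of `TOR.pathConnectedSpace_tot` -/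
theorem transitive (n : ℕ) (s t : F n) : ∃ g ∈ Subgroup.closure rE.gens, g • s = t := by
  obtain ⟨g, hg⟩ := MulAction.exists_smul_eq E s t
  exact ⟨g, by rw [closure_gens]; trivial, hg⟩

instance (n : ℕ) : PathConnectedSpace (rE.Tot (F n)) := rE.pathConnectedSpace_tot (transitive n)

/-- The projections. -/
noncomputable def pj {n n' : ℕ} (h : n ≤ n') : F n' →[E] F n := H708.proj (K_anti h)

@[simp] theorem pj_mk {n n' : ℕ} (h : n ≤ n') (e : E) : pj h (mk n' e) = mk n e := rfl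

theorem pj_surjective {n n' : ℕ} (h : n ≤ n') : Function.Surjective (pj h) :=
  H708.proj_surjective (K_anti h)

theorem pj_pj {n n' n'' : ℕ} (h : n ≤ n') (h' : n' ≤ n'') (s : F n'') :
    pj h (pj h' s) = pj (h.trans h') s := by
  obtain ⟨e, rfl⟩ := mk_surjective n'' s
  rfl

theorem pj_self {n : ℕ} (s : F n) : pj le_rfl s = s := by
  obtain ⟨e, rfl⟩ := mk_surjective n s
  rfl

/-! ### the orders -/

theorem exists_ord0 (ν : Fin 16) (s : F 0) :
    ∃ p q : ℕ, H708.POrd (H708.arrE.wa ν) (H708.arrE.wb ν) s p q := (lat ν).exists_ord (n := 0) s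

/-- first order at the level `0` -/
noncomputable def p0 (ν : Fin 16) (s : F 0) : ℕ := (exists_ord0 ν s).choose

/-- second order at the level `0` -/
noncomputable def q0 (ν : Fin 16) (s : F 0) : ℕ := (exists_ord0 ν s).choose_spec.choose

/-- The order of the `u`-monodromy of the chart `ν` at `s`. -/
noncomputable def p (n : ℕ) (ν : Fin 16) (s : F n) : ℕ := p0 ν (pj (Nat.zero_le n) s)

/-- The order of the `v`-monodromy of the chart `ν` at `s`. -/
noncomputable def q (n : ℕ) (ν : Fin 16) (s : F n) : ℕ := q0 ν (pj (Nat.zero_le n) s)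

/-- **Product stabilisers.** -/
theorem pord (n : ℕ) (ν : Fin 16) (s : F n) :
    H708.POrd (H708.arrE.wa ν) (H708.arrE.wb ν) s (p n ν s) (q n ν s) :=
  ((lat ν).ord_proj (K_anti (Nat.zero_le n)) s).mp
    (exists_ord0 ν (pj (Nat.zero_le n) s)).choose_spec.choose_spec

/-- **The orders do not change in the tower.** -/
theorem p_pj {n n' : ℕ} (h : n ≤ n') (ν : Fin 16) (s : F n') : p n ν (pj h s) = p n' ν s := by
  rw [p, p, pj_pj]

theorem q_pj {n n' : ℕ} (h : n ≤ n') (ν : Fin 16) (s : F n') : q n ν (pj h s) = q n' ν s := by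
  rw [q, q, pj_pj]

/-- helper753's form -/
theorem ord (n : ℕ) (ν : Fin 16) (s : F n) :
    H753.Ord (MulAction.toPermHom E (F n) ((Spec.toA rE).wa ν))
      (MulAction.toPermHom E (F n) ((Spec.toA rE).wb ν)) s (p n ν s) (q n ν s) := (pord n ν s).ord

/-- The lifts with their orders (helper921's input), from NODE. -/
noncomputable def lifts (h : Spec.NodeSpec rE) (n : ℕ) :
    Mod.Lifts H142.R (fun ν : Fin 15 => Spec.kapU ν.castSucc) (rE.pr : rE.Tot (F n) → TOR.Arr.UT)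
      (F n) :=
  Spec.modLifts h (F n) (fun ν => p n ν.castSucc) (fun ν => q n ν.castSucc)
    fun ν s => ord n ν.castSucc s

end Vale.Agent.P300.ASM
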