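import Vale.Agent.P300.ASM.Group
import Vale.Agent.P300.H753.Hom

/-!
# P300, glue: the maps of covers `Tot (F n') → Tot (F n)` as maps of local models
-/

namespace Vale.Agent.P300.ASM

variable {n n' n'' : ℕ}

/-- The map of the torsors. -/
noncomputable def g (h : n ≤ n') : rE.Tot (F n') → rE.Tot (F n) := rE.map (pj h)

theorem pr_g (h : n ≤ n') (x : rE.Tot (F n')) : rE.pr (g h x) = rE.pr x := rfl

theorem g_g (h : n ≤ n') (h' : n' ≤ n'') (x : rE.Tot (F n'')) :
    g h (g h' x) = g (h.trans h') x := by
  have e : (pj h ∘ pj h' : F n'' → F n) = pj (h.trans h') := funext fun s => pj_pj h h' s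
  rw [g, g, TOR.Arr.map_comp, e]; rfl

theorem g_surjective (h : n ≤ n') : Function.Surjective (g h) :=
  TOR.Arr.map_surjective rE (pj_surjective h)

/-- **The tower of covers consists of maps which are bijective on the local orbits.** -/
theorem lHom (hN : Spec.NodeSpec rE) (h : n ≤ n') :
    H753.LHom (lifts hN n') (lifts hN n) (pj h) (g h) where
  ha _ s := (pj h).map_smul _ s
  hb _ s := (pj h).map_smul _ s
  hp ν s := (p_pj h ν.castSucc s).symm
  hq ν s := (q_pj h ν.castSucc s).symm
  hL ν z hz s := (Spec.lifts hN ν.castSucc).map (F n') (F n) (pj h) (fun g s => (pj h).map_smul g s)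
    (z.1, z.2) hz s
  hpr _ := rfl

end Vale.Agent.P300.ASM
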