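import Vale.Agent.P300.H839.Tower

/-!
# P300, assembly: from labels to the orbit hypothesis

`F` a `G`-set, `Γ = ⟨c₁, c₂, c₃⟩`, `s₀` fixed by all `Γ`-conjugates of the two loops `t'`, `t''`
around the components of the bad fibre, `t'' = c₁ c₂ t'`.  `n : F → Z` are the node points.  If the
loops of the two spheres move the label `s` to `c₂ᵏ s` resp. `c₃ᵏ s`, then all node points of the
`Γ`-orbit of `s₀` are in one orbit of node points.
-/

open Topology Set Complex

namespace Vale.Agent.P300.ASM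

open Vale.Agent.P300.H839

variable {G : Type*} [Group G] {F : Type*} [MulAction G F]

/-- The `Γ`-orbit of `s₀`, `Γ = ⟨c₁, c₂, c₃⟩`. -/
def Orbit (c1 c2 c3 : G) (s0 : F) : Set F := {s | ∃ g ∈ Subgroup.closure {c1, c2, c3}, s = g • s0}

theorem self_mem_Orbit (c1 c2 c3 : G) (s0 : F) : s0 ∈ Orbit c1 c2 c3 s0 :=
  ⟨1, one_mem _, (one_smul _ _).symm⟩

theorem smul_mem_Orbit {c1 c2 c3 : G} {s0 s : F} (hs : s ∈ Orbit c1 c2 c3 s0) {g : G}
    (hg : g ∈ Subgroup.closure {c1, c2, c3}) : g • s ∈ Orbit c1 c2 c3 s0 := by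
  obtain ⟨h, hh, rfl⟩ := hs
  exact ⟨g * h, mul_mem hg hh, by rw [mul_smul]⟩

/-- **From labels to orbits.** -/
theorem orb_of_labels {Y Z : Type*} [TopologicalSpace Y] [TopologicalSpace Z] {J : Type*}
    {S : J → Sph Y} {p : Z → Y} {c1 c2 c3 t' t'' : G} (ht : t'' = c1 * c2 * t') {s0 : F}
    (ht' : ∀ s ∈ Orbit c1 c2 c3 s0, t' • s = s) (ht'' : ∀ s ∈ Orbit c1 c2 c3 s0, t'' • s = s)
    {n : F → Z} {j2 j3 : J}
    (h2 : ∀ s ∈ Orbit c1 c2 c3 s0, ∃ M : C(ℂ, Z), (∀ z, p (M z) = (S j2).f (exp z)) ∧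
      ∀ k : ℤ, M (k * (2 * Real.pi * I)) = n (c2 ^ k • s))
    (h3 : ∀ s ∈ Orbit c1 c2 c3 s0, ∃ M : C(ℂ, Z), (∀ z, p (M z) = (S j3).f (exp z)) ∧
      ∀ k : ℤ, M (k * (2 * Real.pi * I)) = n (c3 ^ k • s))
    {s : F} (hs : s ∈ Orbit c1 c2 c3 s0) : Orb S p (n s0) (n s) := by
  have hc2 : c2 ∈ Subgroup.closure {c1, c2, c3} := Subgroup.subset_closure (by simp)
  have hc3 : c3 ∈ Subgroup.closure {c1, c2, c3} := Subgroup.subset_closure (by simp)
  -- one step
  have step2 : ∀ s ∈ Orbit c1 c2 c3 s0, ∀ k : ℤ, Orb S p (n s0) (n s) →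
      Orb S p (n s0) (n (c2 ^ k • s)) := by
    intro s hs k h
    obtain ⟨M, hM, hk⟩ := h2 s hs
    have h0 := hk 0
    rw [zpow_zero, one_smul] at h0
    rw [← hk k]
    refine Orb.step j2 M hM 0 k ?_
    rw [h0]
    exact h
  have step3 : ∀ s ∈ Orbit c1 c2 c3 s0, ∀ k : ℤ, Orb S p (n s0) (n s) →
      Orb S p (n s0) (n (c3 ^ k • s)) := by
    intro s hs k h
    obtain ⟨M, hM, hk⟩ := h3 s hs
    have h0 := hk 0
    rw [zpow_zero, one_smul] at h0
    rw [← hk k]
    refine Orb.step j3 M hM 0 k ?_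
    rw [h0]
    exact h
  -- `c₁` acts as `c₂⁻¹`
  have e1 : ∀ s ∈ Orbit c1 c2 c3 s0, c1 • s = c2⁻¹ • s := by
    intro s hs
    have hs' : c2⁻¹ • s ∈ Orbit c1 c2 c3 s0 := smul_mem_Orbit hs (inv_mem hc2)
    have h1 := ht'' _ hs'
    rw [ht, mul_smul, ht' _ hs', mul_smul, smul_inv_smul] at h1
    exact h1
  have key : ∀ g ∈ Subgroup.closure {c1, c2, c3}, ∀ s ∈ Orbit c1 c2 c3 s0,
      Orb S p (n s0) (n s) → Orb S p (n s0) (n (g • s)) ∧ Orb S p (n s0) (n (g⁻¹ • s)) := by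
    intro g hg
    induction hg using Subgroup.closure_induction with
    | mem x hx =>
      intro s hs h
      rcases hx with rfl | rfl | hx
      · refine ⟨?_, ?_⟩
        · rw [e1 s hs]
          have := step2 s hs (-1) h
          rwa [zpow_neg_one] at this
        · have h5 : x⁻¹ • s = c2 • s := by
            rw [inv_smul_eq_iff, e1 _ (smul_mem_Orbit hs hc2), inv_smul_smul]
          rw [h5]
          simpa using step2 s hs 1 h
      · refine ⟨by simpa using step2 s hs 1 h, ?_⟩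
        have := step2 s hs (-1) h
        rwa [zpow_neg_one] at this
      · rw [mem_singleton_iff] at hx
        subst hx
        refine ⟨by simpa using step3 s hs 1 h, ?_⟩
        have := step3 s hs (-1) h
        rwa [zpow_neg_one] at this
    | one => intro s hs h; simpa using h
    | mul x y hx hy ihx ihy =>
      intro s hs h
      refine ⟨?_, ?_⟩
      · rw [mul_smul]
        exact (ihx _ (smul_mem_Orbit hs hy) (ihy s hs h).1).1
      · rw [mul_inv_rev, mul_smul]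
        exact (ihy _ (smul_mem_Orbit hs (inv_mem hx)) (ihx s hs h).2).2
    | inv x hx ihx =>
      intro s hs h
      rw [inv_inv]
      exact ⟨(ihx s hs h).2, (ihx s hs h).1⟩
  obtain ⟨g, hg, rfl⟩ := hs
  exact (key g hg s0 (self_mem_Orbit _ _ _ _) Orb.base).1

end Vale.Agent.P300.ASM
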