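import Vale.Agent.P300.ASM.Stmt426
import Vale.Agent.P300.H749.CpxEmb

/-!
# P300 : holomorphic maps to the Riemann sphere on a completed covering (helper426)
-/

set_option linter.all false

open Set Filter Topology Metric
open scoped ContDiff Manifold OnePoint

namespace Vale.Agent.P300.ASM

open Vale.Agent.P300.Cpx

theorem sphereInv_zero : sphereInv 0 = OnePoint.infty := by simp [sphereInv]

theorem sphereInv_ne {z : ℂ} (hz : z ≠ 0) : sphereInv z = ((z⁻¹ : ℂ) : OnePoint ℂ) := by
  simp [sphereInv, hz]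

/-- finite part -/
noncomputable def fin0 (y : OnePoint ℂ) : ℂ := y.elim 0 (fun w => w)

/-- inverse, infinity to 0 -/
noncomputable def finI (y : OnePoint ℂ) : ℂ := y.elim 0 (fun w => w⁻¹)

@[simp] theorem fin0_coe (z : ℂ) : fin0 (z : OnePoint ℂ) = z := rfl
@[simp] theorem finI_coe (z : ℂ) : finI (z : OnePoint ℂ) = z⁻¹ := rfl
@[simp] theorem finI_infty : finI OnePoint.infty = 0 := rfl

theorem coe_fin0 {y : OnePoint ℂ} (hy : y ≠ OnePoint.infty) : y = ((fin0 y : ℂ) : OnePoint ℂ) := by
  induction y using OnePoint.rec with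
  | infty => exact absurd rfl hy
  | coe z => rfl

theorem sphereInv_finI {y : OnePoint ℂ} (hy : y ≠ ((0 : ℂ) : OnePoint ℂ)) :
    y = sphereInv (finI y) := by
  induction y using OnePoint.rec with
  | infty => rw [finI_infty, sphereInv_zero]
  | coe z =>
    have hz : z ≠ 0 := fun h => hy (by rw [h])
    rw [finI_coe, sphereInv_ne (inv_ne_zero hz), inv_inv]

theorem continuousAt_fin0 {y : OnePoint ℂ} (hy : y ≠ OnePoint.infty) : ContinuousAt fin0 y := by
  induction y using OnePoint.rec with
  | infty => exact absurd rfl hy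
  | coe z =>
    rw [OnePoint.continuousAt_coe]
    exact continuousAt_id

theorem continuousAt_finI {y : OnePoint ℂ} (hy : y ≠ ((0 : ℂ) : OnePoint ℂ)) :
    ContinuousAt finI y := by
  induction y using OnePoint.rec with
  | infty =>
    rw [OnePoint.continuousAt_infty', finI_infty]
    have h : Tendsto (fun z : ℂ => z⁻¹) (Bornology.cobounded ℂ) (𝓝 0) :=
      tendsto_inv₀_cobounded
    rw [coclosedCompact_eq_cocompact, ← Metric.cobounded_eq_cocompact]
    exact h
  | coe z =>
    have hz : z ≠ 0 := fun h => hy (by rw [h])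
    rw [OnePoint.continuousAt_coe]
    exact continuousAt_inv₀ hz

section

variable {X : Type*} [TopologicalSpace X] (A : CpxAtlas X)

/-- scalar functions which are holomorphic in the charts off the axes are holomorphic -/
theorem contMDiffOn_scalar {V : Set X} (hV : IsOpen V) {h : X → ℂ} (hh : ContinuousOn h V)
    (hd : ∀ i, DifferentiableOn ℂ (h ∘ (A.e i).symm)
      ((A.e i).target ∩ (A.e i).symm ⁻¹' V ∩ offAx)) :
    letI := A.charted
    ContMDiffOn 𝓘(ℂ, E2) 𝓘(ℂ) ω h V := by
  letI := A.charted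
  intro x hx
  obtain ⟨i, hi⟩ := A.cover x
  have hWo : IsOpen ((A.e i).target ∩ (A.e i).symm ⁻¹' V) :=
    (A.e i).symm.continuousOn.isOpen_inter_preimage (A.e i).open_target hV
  have h0 : DifferentiableOn ℂ (h ∘ (A.e i).symm) ((A.e i).target ∩ (A.e i).symm ⁻¹' V) := by
    refine diffOn_of_offAx hWo ?_ (hd i)
    refine hh.comp ((A.e i).symm.continuousOn.mono inter_subset_left) ?_
    exact fun z hz => hz.2
  have h1' : ContDiffOn ℂ ω (fun z => fun _ : Unit => (h ∘ (A.e i).symm) z)
      ((A.e i).target ∩ (A.e i).symm ⁻¹' V) := by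
    refine contDiffOn_of_diff hWo ?_
    rw [differentiableOn_pi]
    exact fun _ => h0
  have h1 : ContMDiffOn 𝓘(ℂ, E2) 𝓘(ℂ) ω (h ∘ (A.e i).symm)
      ((A.e i).target ∩ (A.e i).symm ⁻¹' V) :=
    ((contDiffOn_pi.1 h1') ()).contMDiffOn
  have h2 : ContMDiffOn 𝓘(ℂ, E2) 𝓘(ℂ) ω ((h ∘ (A.e i).symm) ∘ (A.e i))
      ((A.e i).source ∩ V) := by
    refine h1.comp ((A.e_contMDiffOn i).mono inter_subset_left) ?_
    intro y hy
    refine ⟨(A.e i).map_source hy.1, ?_⟩
    show (A.e i).symm (A.e i y) ∈ V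
    rw [(A.e i).left_inv hy.1]
    exact hy.2
  have h3 : ContMDiffOn 𝓘(ℂ, E2) 𝓘(ℂ) ω h ((A.e i).source ∩ V) := by
    refine h2.congr ?_
    intro y hy
    show h y = h ((A.e i).symm (A.e i y))
    rw [(A.e i).left_inv hy.1]
  have hNo : IsOpen ((A.e i).source ∩ V) := (A.e i).open_source.inter hV
  exact ((h3 x ⟨hi, hx⟩).contMDiffAt (hNo.mem_nhds ⟨hi, hx⟩)).contMDiffWithinAt

/-- **Continuous maps to the Riemann sphere which are finite and holomorphic in the charts off the
axes are holomorphic.** -/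
theorem isSphereHolomorphic {f : X → OnePoint ℂ} (hf : Continuous f)
    (hd : ∀ i, ∃ g : E2 → ℂ, DifferentiableOn ℂ g ((A.e i).target ∩ offAx) ∧
      ∀ z ∈ (A.e i).target ∩ offAx, f ((A.e i).symm z) = ((g z : ℂ) : OnePoint ℂ)) :
    letI := A.charted
    IsSphereHolomorphic E2 f := by
  letI := A.charted
  choose g hg hfg using hd
  intro x
  by_cases hx : f x = OnePoint.infty
  · -- near a pole
    have hW : IsOpen {y : X | f y ≠ ((0 : ℂ) : OnePoint ℂ)} :=
      isOpen_ne_fun hf continuous_const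
    refine ⟨{y | f y ≠ ((0 : ℂ) : OnePoint ℂ)}, fun y => finI (f y), hW, ?_, ?_,
      Or.inr fun y hy => sphereInv_finI hy⟩
    · show f x ≠ _
      rw [hx]
      exact OnePoint.infty_ne_coe _
    · refine contMDiffOn_scalar A hW ?_ ?_
      · intro y hy
        exact (ContinuousAt.comp (f := f) (g := finI) (continuousAt_finI hy)
          hf.continuousAt).continuousWithinAt
      · intro i
        have h1 : DifferentiableOn ℂ (fun z => (g i z)⁻¹)
            ((A.e i).target ∩ (A.e i).symm ⁻¹' {y | f y ≠ ((0 : ℂ) : OnePoint ℂ)} ∩ offAx) := by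
          refine ((hg i).mono fun z hz => ⟨hz.1.1, hz.2⟩).inv ?_
          intro z hz h0
          have h2 := hfg i z ⟨hz.1.1, hz.2⟩
          rw [h0] at h2
          exact hz.1.2 h2
        refine h1.congr ?_
        intro z hz
        show finI (f ((A.e i).symm z)) = _
        rw [hfg i z ⟨hz.1.1, hz.2⟩, finI_coe]
  · have hW : IsOpen {y : X | f y ≠ OnePoint.infty} := isOpen_ne_fun hf continuous_const
    refine ⟨{y | f y ≠ OnePoint.infty}, fun y => fin0 (f y), hW, hx, ?_, Or.inl fun y hy => coe_fin0 hy⟩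
    refine contMDiffOn_scalar A hW ?_ ?_
    · intro y hy
      exact (ContinuousAt.comp (f := f) (g := fin0) (continuousAt_fin0 hy)
        hf.continuousAt).continuousWithinAt
    · intro i
      refine ((hg i).mono fun z hz => ⟨hz.1.1, hz.2⟩).congr ?_
      intro z hz
      show fin0 (f ((A.e i).symm z)) = _
      rw [hfg i z ⟨hz.1.1, hz.2⟩, fin0_coe]

end

end Vale.Agent.P300.ASM
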