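import Vale.Agent.P300.ASM.Sph
import Vale.Agent.P300.H573.Cmp
import Vale.Agent.P300.H242.YBar

/-!
# P300 : the finite map of a completed covering of `M̄₀,₅` to `(ℙ¹)⁵` (helper426)
-/

set_option linter.all false

open Set Filter Topology Metric
open scoped ContDiff Manifold OnePoint

namespace Vale.Agent.P300.ASM

open Vale.Agent.P300.Cpx Vale.Agent.P300.H242

/-- the completion has finite fibres -/
theorem finite_fibre_proj {Y X0 : Type} [TopologicalSpace Y] [TopologicalSpace X0] {q : X0 → Y}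
    (D : H573.Models q) [T2Space Y] [LocallyCompactSpace Y] [Finite D.I] (y : Y) :
    (D.proj ⁻¹' {y}).Finite := by
  refine (Set.finite_iUnion fun i : D.I => (D.fin i y).image (D.hat i)).subset ?_
  intro x hx
  obtain ⟨i, p, rfl⟩ := D.exists_hat x
  refine mem_iUnion.2 ⟨i, p, ?_, rfl⟩
  rw [mem_preimage, D.proj_hat] at hx
  exact hx

theorem differentiableOn_cc (k : Fin 5) : DifferentiableOn ℂ (fun p : ℂ × ℂ => cc p k) Om := by
  have h : ∀ p ∈ Om, (1 - p.1 * p.2 : ℂ) ≠ 0 := fun p hp => hp.2.2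
  have hi : DifferentiableOn ℂ (fun p : ℂ × ℂ => (1 - p.1 * p.2)⁻¹) Om :=
    DifferentiableOn.fun_inv (by fun_prop) h
  have h1 : DifferentiableOn ℂ (fun p : ℂ × ℂ => 1 - p.2) Om := by fun_prop
  have h2 : DifferentiableOn ℂ (fun p : ℂ × ℂ => p.1 * (1 - p.2)) Om := by fun_prop
  fin_cases k
  · exact (h1.fun_mul hi).congr fun p _ => div_eq_mul_inv _ _
  · exact differentiable_snd.differentiableOn
  · exact (differentiable_fst.mul differentiable_snd).differentiableOn
  · exact differentiable_fst.differentiableOn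
  · exact (h2.fun_mul hi).congr fun p _ => div_eq_mul_inv _ _

theorem differentiableOn_actC (a : M6) :
    DifferentiableOn ℂ (M6.actC a) {z | z ≠ 0 ∧ 1 - z ≠ 0} := by
  have h0 : DifferentiableOn ℂ (fun z : ℂ => z⁻¹) {z | z ≠ 0 ∧ 1 - z ≠ 0} :=
    DifferentiableOn.inv differentiableOn_id (fun z hz => hz.1)
  have h1 : DifferentiableOn ℂ (fun z : ℂ => (1 - z)⁻¹) {z | z ≠ 0 ∧ 1 - z ≠ 0} :=
    DifferentiableOn.inv (by fun_prop) (fun z hz => hz.2)
  cases a
  · exact differentiableOn_id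
  · show DifferentiableOn ℂ (fun z : ℂ => 1 - z) _
    fun_prop
  · exact h0
  · exact h0.const_sub 1
  · exact h1
  · exact h1.const_sub 1

/-- the value of a node chart on `M₀,₅` -/
theorem kap_apply (w : List (Fin 5)) {p : ℂ × ℂ} (hp : p ∈ U0) (k : Fin 5) :
    (kap w p : Fin 5 → P1) k = ((M6.actC ((wr w).m k) (cc p ((wr w).p k)) : ℂ) : P1) := by
  rw [kap_val w (U0_sub hp)]
  have h := cc_ne hp ((wr w).p k)
  show ((wr w).m k).act (kap0 p ((wr w).p k)) = _
  simp only [kap0, M6.act_coe _ h.1 h.2]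

/-- **The finite map to `(ℙ¹)⁵`**: `π : X → M̄₀,₅` is, in the chart `i`, the map
`z ↦ kap w (z₀ ^ p, z₁ ^ q)`. -/
theorem hasFiniteMap {X : Type*} [TopologicalSpace X] (A : CpxAtlas X) {π : X → Y}
    (hπ : Continuous π) (hfin : ∀ y, (π ⁻¹' {y}).Finite)
    (w : A.I → List (Fin 5)) (p q : A.I → ℕ)
    (h : ∀ i, ∀ z ∈ (A.e i).target, (z 0 ^ p i, z 1 ^ q i) ∈ Om ∧
      π ((A.e i).symm z) = kap (w i) (z 0 ^ p i, z 1 ^ q i)) :
    letI := A.charted
    HasFiniteMapToSpheres E2 X 5 := by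
  letI := A.charted
  refine ⟨fun k x => (π x : Fin 5 → P1) k, fun k => ?_, fun x => ?_⟩
  · refine isSphereHolomorphic A ?_ fun i => ?_
    · exact (continuous_apply k).comp (continuous_subtype_val.comp hπ)
    · have hU0 : ∀ z ∈ (A.e i).target ∩ offAx, ((z 0 ^ p i, z 1 ^ q i) : ℂ × ℂ) ∈ U0 := by
        intro z hz
        obtain ⟨h1, h2, h3⟩ := (h i z hz.1).1
        exact ⟨pow_ne_zero _ fun h0 => hz.2 (by rw [h0, zero_mul]),
          pow_ne_zero _ fun h0 => hz.2 (by rw [h0, mul_zero]), h1, h2, h3⟩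
      refine ⟨fun z => M6.actC ((wr (w i)).m k) (cc (z 0 ^ p i, z 1 ^ q i) ((wr (w i)).p k)),
        ?_, fun z hz => ?_⟩
      · refine (differentiableOn_actC _).comp (t := {z : ℂ | z ≠ 0 ∧ 1 - z ≠ 0})
          (f := fun z : E2 => cc (z 0 ^ p i, z 1 ^ q i) ((wr (w i)).p k)) ?_ ?_
        · refine (differentiableOn_cc _).comp (t := Om)
            (f := fun z : E2 => ((z 0 ^ p i, z 1 ^ q i) : ℂ × ℂ)) ?_ ?_
          · fun_prop
          · exact fun z hz => (h i z hz.1).1
        · exact fun z hz => cc_ne (hU0 z hz) _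
      · show (π ((A.e i).symm z) : Fin 5 → P1) k = _
        rw [(h i z hz.1).2, kap_apply _ (hU0 z hz)]
  · refine (hfin (π x)).subset ?_
    intro y hy
    exact Subtype.ext (funext hy)

end Vale.Agent.P300.ASM
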