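import Vale.Agent.P300.H232.Stmt
import Mathlib.Topology.Compactification.OnePoint.Basic

/-!
# P300 : the literal statement of the fallback theorem (helper426)
-/

open scoped Manifold ContDiff OnePoint

namespace Vale.Agent.P300

/-- The map `z ↦ 1 / z` from `ℂ` to the Riemann sphere `ℂ ∪ {∞}`; it maps `0` to `∞`. -/
noncomputable def sphereInv (z : ℂ) : OnePoint ℂ :=
  open Classical in if z = 0 then ∞ else ((z⁻¹ : ℂ) : OnePoint ℂ)

/-- `f` is a holomorphic map from the complex manifold `X` (modelled on `E`) to the Riemann sphere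
`ℂ ∪ {∞}`: near every point of `X`, either `f = g` or `f = 1 / g` for a holomorphic function `g`. -/
def IsSphereHolomorphic (E : Type*) [NormedAddCommGroup E] [NormedSpace ℂ E]
    {X : Type*} [TopologicalSpace X] [ChartedSpace E X] (f : X → OnePoint ℂ) : Prop :=
  ∀ x : X, ∃ (W : Set X) (g : X → ℂ), IsOpen W ∧ x ∈ W ∧
    ContMDiffOn 𝓘(ℂ, E) 𝓘(ℂ) ω g W ∧
    ((∀ y ∈ W, f y = (g y : OnePoint ℂ)) ∨ (∀ y ∈ W, f y = sphereInv (g y)))

/-- There is a holomorphic map with finite fibres from the complex manifold `X` to the product of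
`n` copies of the Riemann sphere (for compact `X`: a finite map). A compact complex manifold with
this property is projective algebraic (the pull back of an ample line bundle under a finite map is
ample); this classical fact is not used here. -/
def HasFiniteMapToSpheres (E : Type*) [NormedAddCommGroup E] [NormedSpace ℂ E]
    (X : Type*) [TopologicalSpace X] [ChartedSpace E X] (n : ℕ) : Prop :=
  ∃ f : Fin n → X → OnePoint ℂ, (∀ i, IsSphereHolomorphic E (f i)) ∧
    ∀ x : X, {y | ∀ i, f i y = f i x}.Finite

/-- **The fallback theorem.** There is a compact connected complex surface `X` with a finite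
holomorphic map to `(ℙ¹)⁵` whose universal covering (which exists) is not holomorphically
convex. -/
def FallbackStatement : Prop :=
  ∃ (X : Type) (_ : TopologicalSpace X) (_ : ChartedSpace (Fin 2 → ℂ) X),
    IsManifold 𝓘(ℂ, Fin 2 → ℂ) ω X ∧ T2Space X ∧ CompactSpace X ∧ ConnectedSpace X ∧
    HasFiniteMapToSpheres (Fin 2 → ℂ) X 5 ∧
    (∃ (V : Type) (_ : TopologicalSpace V) (_ : ChartedSpace (Fin 2 → ℂ) V) (p : V → X),
      IsUniversalCovering (Fin 2 → ℂ) p) ∧
    ∀ (V : Type) (_ : TopologicalSpace V) (_ : ChartedSpace (Fin 2 → ℂ) V) (p : V → X),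
      IsUniversalCovering (Fin 2 → ℂ) p → ¬ HolomorphicallyConvex (Fin 2 → ℂ) V

end Vale.Agent.P300
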