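import Vale.Agent.P300.ASM.GroupHom
import Vale.Agent.P300.H242.YVal
import Vale.Agent.P300.H749.Cov

/-!
# P300, assembly: the surfaces `XX hN n`

`hN : Spec.NodeSpec rE` (block NODE) gives the coverings `rE.Tot (F n)` of `U = M_{0,5}` with their
lifts over the node regions; `XX hN n` is the completion over `Y = M̄_{0,5}`: a compact connected
complex surface with a finite map `Xpi` to `Y`, `Xext : XX hN n' → XX hN n` are coverings.
-/

open Set Topology Complex
open scoped Manifold ContDiff

namespace Vale.Agent.P300.ASM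

/-- Two parametrisations which agree on the punctured region. -/
theorem _root_.Vale.Agent.P300.H753.Node.congr_kap {R : Set (ℂ × ℂ)} {US U S : Type*}
    [TopologicalSpace US] [TopologicalSpace U] {pr : US → U} {kap kap' : ℂ × ℂ → U}
    {a b : Equiv.Perm S} {L : ℂ → ℂ → S → US} (H : H753.Node R pr kap a b L)
    (h : ∀ w ∈ H753.Rp R, kap w = kap' w) : H753.Node R pr kap' a b L := by
  have hR : ∀ z ∈ H753.Rt R, (exp z.1, exp z.2) ∈ H753.Rp R := fun z hz =>
    ⟨hz, exp_ne_zero _, exp_ne_zero _⟩
  exact
    { opR := H.opR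
      kinj := H.kinj.congr h
      kopen := fun V hV ho => by
        have h1 : kap' '' V = kap '' V := image_congr fun w hw => (h w (hV hw)).symm
        rw [h1]
        exact H.kopen V hV ho
      loc := H.loc
      comm := H.comm
      Lcont := H.Lcont
      Lpr := fun z hz s => by rw [H.Lpr z hz s, h _ (hR z hz)]
      La := H.La
      Lb := H.Lb
      Linj := H.Linj
      Lsurj := fun z hz y hy => H.Lsurj z hz y (by rw [hy, h _ (hR z hz)]) }

/-- the projection to `U`, in the names of the node table -/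
noncomputable def prU (n : ℕ) : rE.Tot (F n) → H142.U := (rE.pr : rE.Tot (F n) → TOR.Arr.UT)

theorem prU_coe (n : ℕ) (x : rE.Tot (F n)) :
    (prU n x : ℂ × ℂ) = ((rE.pr x : TOR.Arr.UT) : ℂ × ℂ) := rfl

/-- helper921's lifts, with helper921's charts `Mod.kapU` -/
noncomputable def liftsU (hN : Spec.NodeSpec rE) (n : ℕ) :
    Mod.Lifts H142.R Mod.kapU (prU n) (F n) where
  a := (lifts hN n).a
  b := (lifts hN n).b
  L := (lifts hN n).L
  p := (lifts hN n).p
  q := (lifts hN n).q
  node ν := by
    have h1 : H753.Node H142.R (prU n) (fun w => (Spec.kapU ν.castSucc w : H142.U))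
        ((lifts hN n).a ν) ((lifts hN n).b ν) ((lifts hN n).L ν) := (lifts hN n).node ν
    refine h1.congr_kap fun w hw => Subtype.ext ?_
    have hw' : w ∈ H142.W := Mod.Rp_subset_W hw
    rw [Mod.kapU_val hw', ← Spec.kapE_castSucc]
    exact Spec.kapU_coe ν.castSucc hw'
  ord := (lifts hN n).ord

theorem lHomU (hN : Spec.NodeSpec rE) {n n' : ℕ} (h : n ≤ n') :
    H753.LHom (liftsU hN n') (liftsU hN n) (pj h) (g h) where
  ha := (lHom hN h).ha
  hb := (lHom hN h).hb
  hp := (lHom hN h).hp
  hq := (lHom hN h).hq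
  hL := (lHom hN h).hL
  hpr _ := rfl

/-- the local models of the completion -/
noncomputable abbrev XM (hN : Spec.NodeSpec rE) (n : ℕ) := (liftsU hN n).models H242.yData

/-- **The surface `X_n`.** -/
abbrev XX (hN : Spec.NodeSpec rE) (n : ℕ) : Type := (XM hN n).Cmp

variable (hN : Spec.NodeSpec rE) (n : ℕ)

/-- the complex charts of `X_n` -/
noncomputable def XA : Cpx.CpxAtlas (XX hN n) := (Cpx.cpxF (liftsU hN n) H242.yData).atlas

noncomputable instance : ChartedSpace (Fin 2 → ℂ) (XX hN n) := (XA hN n).charted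

instance : IsManifold 𝓘(ℂ, Fin 2 → ℂ) ω (XX hN n) := (XA hN n).isManifold

instance : T2Space (XX hN n) := Cpx.t2Space_F _ _

instance : CompactSpace (XX hN n) := Cpx.compactSpace_F _ _

instance : ConnectedSpace (XX hN n) := Cpx.connectedSpace_F _ _

/-- the projection to `Y = M̄_{0,5}` -/
noncomputable def Xpi : XX hN n → H242.Y := (XM hN n).proj

theorem continuous_Xpi : Continuous (Xpi hN n) := (XM hN n).continuous_proj

theorem finite_fibre_Xpi (y : H242.Y) : (Xpi hN n ⁻¹' {y}).Finite := Cpx.finite_fibre_F _ _ y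

/-- the inclusion of the covering of `U` -/
noncomputable def Xincl : rE.Tot (F n) → XX hN n := (XM hN n).incl

theorem Xpi_incl (x : rE.Tot (F n)) : Xpi hN n (Xincl hN n x) = H242.io (prU n x) :=
  (XM hN n).proj_incl x

variable {n} {n' : ℕ} (h : n ≤ n')

/-- the covering `X_{n'} → X_n` -/
noncomputable def Xext : XX hN n' → XX hN n := ((lHomU hN h).hom H242.yData).ext

theorem isCoveringMap_Xext : IsCoveringMap (Xext hN h) := (lHomU hN h).isCoveringMap_ext _

theorem surjective_Xext : Function.Surjective (Xext hN h) :=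
  (lHomU hN h).surjective_ext (pj_surjective h) _

theorem Xpi_Xext (x : XX hN n') : Xpi hN n (Xext hN h x) = Xpi hN n' x :=
  (lHomU hN h).proj_ext _ x

theorem Xext_incl (x : rE.Tot (F n')) :
    Xext hN h (Xincl hN n' x) = Xincl hN n (g h x) :=
  ((lHomU hN h).hom H242.yData).ext_incl x

end Vale.Agent.P300.ASM
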