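import Vale.Agent.P300.ASM.XF
import Vale.Agent.P300.H749.Inst2

/-!
# P300, assembly: the five holomorphic maps `XX hN n → ℙ¹` with finite joint fibres
-/

open Set Topology
open scoped Manifold ContDiff LinearAlgebra.Projectivization

namespace Vale.Agent.P300.ASM

/-- the five cross ratios in the coordinates `(x, λ)` -/
noncomputable def gC (j : Fin 5) (z : ℂ × ℂ) : ℂ := H242.cc (z.1 / z.2, z.2) j

theorem differentiableOn_gC (j : Fin 5) : DifferentiableOn ℂ (gC j) H142.U := by
  intro z hz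
  obtain ⟨h1, h2, h3, h4, h5⟩ := hz
  have h6 : 1 - z.1 ≠ 0 := sub_ne_zero.2 (Ne.symm h2)
  have h7 : 1 - z.1 / z.2 * z.2 ≠ 0 := by rwa [div_mul_cancel₀ _ h3]
  refine DifferentiableAt.differentiableWithinAt ?_
  have hv : DifferentiableAt ℂ (fun z : ℂ × ℂ => z.2) z := differentiableAt_snd
  have hf : DifferentiableAt ℂ (fun z : ℂ × ℂ => z.1) z := differentiableAt_fst
  have hu : DifferentiableAt ℂ (fun z : ℂ × ℂ => z.1 / z.2) z := by
    simp only [div_eq_mul_inv]
    exact hf.mul (hv.inv h3)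
  have hd : DifferentiableAt ℂ (fun z : ℂ × ℂ => (1 - z.1 / z.2 * z.2)⁻¹) z :=
    ((differentiableAt_const 1).sub (hu.mul hv)).inv h7
  fin_cases j
  · exact ((differentiableAt_const 1).sub hv).mul hd
  · exact hv
  · exact hu.mul hv
  · exact hu
  · exact (hu.mul ((differentiableAt_const 1).sub hv)).mul hd

/-- **The finite holomorphic map to `(ℙ¹)⁵`.** -/
theorem exists_finite_map (hN : Spec.NodeSpec rE) (n : ℕ) :
    ∃ F : Fin 5 → XX hN n → ℙ ℂ (Fin (1 + 1) → ℂ),
      (∀ j, IsHolomorphicToProjective (Fin 2 → ℂ) (F j)) ∧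
      ∀ x, {y | ∀ j, F j y = F j x}.Finite :=
  Cpx.exists_finite_map_F (liftsU hN n) H242.yData (c := H242.crd) (g := gC)
    H242.continuous_crd differentiableOn_gC
    (fun j u => H242.crd_io u.2 j) fun _ _ h => H242.crd_ext h

end Vale.Agent.P300.ASM
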