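import Vale.Agent.P300.H242.Geo
import Vale.Agent.P300.H921.TorMod

/-!
# P300, assembly: `M̄_{0,5}` as a value of `YData`
-/

open Set Topology

namespace Vale.Agent.P300.ASM

/-- The compactification `Y = M̄_{0,5}` of `U` with its fifteen node charts. -/
noncomputable def EY : Mod.YData H142.R Mod.kapU H242.Y where
  kY := H242.kapY
  cont ν := (H242.chartY ν).continuousOn.mono H242.R_sub_Om
  inj ν := (H242.kapY_injOn ν).mono H242.R_sub_Om
  opn ν V hV hVo := (H242.chartY ν).isOpen_image_of_subset_source hVo (hV.trans H242.R_sub_Om)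
  cover y := by
    obtain ⟨ν, q, hq, h⟩ := H242.coverY y
    exact ⟨ν, q, H242.KK_sub_R hq, h⟩
  inc u := H242.io u
  inc_inj := by
    intro u u' h
    exact Subtype.ext (H242.io_injOn u.2 u'.2 h)
  inc_kap ν w hw := by
    rw [Mod.kapU_val (Mod.Rp_subset_W hw), H242.kapY_eq ν (Mod.Rp_subset_W hw)]
  bdry ν w hw h := by
    obtain ⟨u, hu⟩ := h
    have h1 : H242.kapY ν w ∈ H242.UY := by
      rw [← hu, ← H242.io_image]
      exact mem_image_of_mem _ u.2
    have h2 := (H242.kapY_mem_UY ν (H242.R_sub_Om hw)).1 h1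
    exact ⟨hw, h2.1, h2.2.1⟩

theorem EY_kY (ν : Fin 15) : EY.kY ν = H242.kapY ν := rfl

theorem EY_inc (u : H142.U) : EY.inc u = H242.io u := rfl

end Vale.Agent.P300.ASM
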